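import Vale.Agent.Lib.LF.Central

/-!
Direct and stable finiteness of group rings, over an arbitrary coefficient ring, pass from `G ⧸ N`
to `G` when the normal subgroup `N` is locally free, or central and torsion-free.
-/

open Vale.Agent.Lib.LF in
theorem Vale.Agent.Results.P194.LocallyFreeKernel.result
    (S : Type*) [Ring S] (G : Type*) [Group G] (N : Subgroup G) [N.Normal]
    (hN : (∀ H : Subgroup G, H ≤ N → H.FG → IsFreeGroup H) ∨
      (N ≤ Subgroup.center G ∧ ∀ x ∈ N, ∀ k : ℕ, 0 < k → x ^ k = 1 → x = 1)) :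
    (IsDedekindFiniteMonoid (MonoidAlgebra S (G ⧸ N)) →
      IsDedekindFiniteMonoid (MonoidAlgebra S G)) ∧
    (IsStablyFiniteRing (MonoidAlgebra S (G ⧸ N)) →
      IsStablyFiniteRing (MonoidAlgebra S G)) := by
  have hsep : SepLocallyFree N := by
    rcases hN with hN | ⟨hc, htf⟩
    · exact sep_of_locallyFree N hN
    · exact sep_of_central N hc htf
  refine ⟨fun h => ?_, fun h => ⟨fun n => dedekindFinite_matrix_of_sep N hsep n
    (h.isDedekindFiniteMonoid n)⟩⟩
  have e1 : IsDedekindFiniteMonoid (Matrix (Fin 1) (Fin 1) (MonoidAlgebra S (G ⧸ N))) :=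
    IsDedekindFiniteMonoid.of_injective
      (Matrix.uniqueRingEquiv (m := Fin 1) (A := MonoidAlgebra S (G ⧸ N))).toRingHom
      (Matrix.uniqueRingEquiv (m := Fin 1) (A := MonoidAlgebra S (G ⧸ N))).injective
  have e2 := dedekindFinite_matrix_of_sep N hsep 1 e1
  exact IsDedekindFiniteMonoid.of_injective
      (Matrix.uniqueRingEquiv (m := Fin 1) (A := MonoidAlgebra S G)).symm.toRingHom
      (Matrix.uniqueRingEquiv (m := Fin 1) (A := MonoidAlgebra S G)).symm.injective
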