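import Vale.Agent.Lib.P194.Descent
import Vale.Agent.Lib.P194.SoficMain

/-!
Kaplansky's stable finiteness conjecture in characteristic `p` for every extension of a sofic group
by a kernel `N` all of whose nontrivial finitely normally generated (in `G`) subgroups
admit a nontrivial homomorphism to `ℤ/p`.
-/

theorem Vale.Agent.Results.P194.SoficExtension.result
    (p : ℕ) [Fact p.Prime] (K : Type*) [Field K] [CharP K p] (G : Type*) [Group G]
    (N : Subgroup G) [N.Normal]
    (hN : ∀ B : Finset G, (B : Set G) ⊆ N → Subgroup.normalClosure (B : Set G) ≠ ⊥ →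
      ∃ φ : Subgroup.normalClosure (B : Set G) →* Multiplicative (ZMod p), φ ≠ 1)
    (hQ : Vale.Agent.Lib.P194.IsSofic (G ⧸ N)) :
    IsStablyFiniteRing (MonoidAlgebra K G) ∧ IsDedekindFiniteMonoid (MonoidAlgebra K G) := by
  have h : IsStablyFiniteRing (MonoidAlgebra K G) :=
    Vale.Agent.Lib.P194.stablyFinite_of_quotient N hN (Vale.Agent.Lib.P194.sofic_stablyFinite hQ)
  exact ⟨h, inferInstance⟩
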