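import Vale.Agent.Lib.P194.Descent
import Vale.Agent.Lib.P194.SurjFinite
import Vale.Agent.Lib.P194.FiniteFieldReduction
import Vale.Agent.Lib.P194.KernelFree
import Vale.Agent.Lib.P194.KernelCentral

/-!
Kaplansky's stable finiteness conjecture in characteristic `p` for every extension `G` of a
surjunctive group `G ⧸ N` by a kernel `N` such that
* every nontrivial normal closure (in `G`) of a finite subset of `N` admits a nontrivial
  homomorphism to `ℤ/p`; or
* `N` is a free group; or
* `N` is central in `G` and has no nontrivial element of finite order prime to `p`.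
(The last two cases are instances of the first.)
-/

theorem Vale.Agent.Results.P194.SurjunctiveExtension.result
    (p : ℕ) [Fact p.Prime] (K : Type*) [Field K] [CharP K p] (G : Type*) [Group G]
    (N : Subgroup G) [N.Normal]
    (hQ : Vale.Agent.Lib.P194.IsSurjunctive (G ⧸ N))
    (hN : (∀ B : Finset G, (B : Set G) ⊆ N → Subgroup.normalClosure (B : Set G) ≠ ⊥ →
            ∃ φ : Subgroup.normalClosure (B : Set G) →* Multiplicative (ZMod p), φ ≠ 1)
          ∨ IsFreeGroup N
          ∨ (N ≤ Subgroup.center G ∧
              ∀ a ∈ N, ∀ k : ℕ, 0 < k → k.Coprime p → a ^ k = 1 → a = 1)) :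
    IsStablyFiniteRing (MonoidAlgebra K G) ∧ IsDedekindFiniteMonoid (MonoidAlgebra K G) := by
  have hN' : ∀ B : Finset G, (B : Set G) ⊆ N → Subgroup.normalClosure (B : Set G) ≠ ⊥ →
      ∃ φ : Subgroup.normalClosure (B : Set G) →* Multiplicative (ZMod p), φ ≠ 1 := by
    rcases hN with h | h | ⟨h1, h2⟩
    · exact h
    · exact Vale.Agent.Lib.P194.free_kernel_hyp p N
    · exact Vale.Agent.Lib.P194.central_kernel_hyp p N h1 h2
  have h0 : IsStablyFiniteRing (MonoidAlgebra K (G ⧸ N)) :=
    ⟨fun n => Vale.Agent.Lib.P194.dedekindFinite_of_finite_fields p n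
      (fun F _ _ _ => Vale.Agent.Lib.P194.surjunctive_dedekindFinite hQ F n) K⟩
  have h : IsStablyFiniteRing (MonoidAlgebra K G) :=
    Vale.Agent.Lib.P194.stablyFinite_of_quotient N hN' h0
  exact ⟨h, inferInstance⟩
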