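import Vale.Agent.Results.P194.ExtensionClosure
import Vale.Agent.Results.P194.LocallyFreeKernel
import Vale.Agent.Results.P194.SoficExtension
import Vale.Agent.Results.P194.SurjunctiveExtension

/-!
Four extension theorems for Kaplansky's direct / stable finiteness conjecture, in one statement:
(1) descent from `G ⧸ N` to `G` in characteristic `p` for kernels all of whose nontrivial finitely
normally generated subgroups map nontrivially to `ℤ/p`; (2) descent over any ring for locally free
kernels and torsion-free central kernels; (3) extensions of sofic groups; (4) extensions of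
surjunctive groups.
-/

universe u v

theorem Vale.Agent.Results.P194.A_Combined.result :
    (∀ (p : ℕ) [Fact p.Prime] (S : Type u) [Ring S] [CharP S p] (G : Type v) [Group G]
      (N : Subgroup G) [N.Normal],
      (∀ B : Finset G, (B : Set G) ⊆ N → Subgroup.normalClosure (B : Set G) ≠ ⊥ →
        ∃ φ : Subgroup.normalClosure (B : Set G) →* Multiplicative (ZMod p), φ ≠ 1) →
      (IsDedekindFiniteMonoid (MonoidAlgebra S (G ⧸ N)) →
        IsDedekindFiniteMonoid (MonoidAlgebra S G)) ∧
      (IsStablyFiniteRing (MonoidAlgebra S (G ⧸ N)) →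
        IsStablyFiniteRing (MonoidAlgebra S G))) ∧
    (∀ (S : Type u) [Ring S] (G : Type v) [Group G] (N : Subgroup G) [N.Normal],
      ((∀ H : Subgroup G, H ≤ N → H.FG → IsFreeGroup H) ∨
        (N ≤ Subgroup.center G ∧ ∀ x ∈ N, ∀ k : ℕ, 0 < k → x ^ k = 1 → x = 1)) →
      (IsDedekindFiniteMonoid (MonoidAlgebra S (G ⧸ N)) →
        IsDedekindFiniteMonoid (MonoidAlgebra S G)) ∧
      (IsStablyFiniteRing (MonoidAlgebra S (G ⧸ N)) →
        IsStablyFiniteRing (MonoidAlgebra S G))) ∧
    (∀ (p : ℕ) [Fact p.Prime] (K : Type u) [Field K] [CharP K p] (G : Type v) [Group G]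
      (N : Subgroup G) [N.Normal],
      (∀ B : Finset G, (B : Set G) ⊆ N → Subgroup.normalClosure (B : Set G) ≠ ⊥ →
        ∃ φ : Subgroup.normalClosure (B : Set G) →* Multiplicative (ZMod p), φ ≠ 1) →
      Vale.Agent.Lib.P194.IsSofic (G ⧸ N) →
      IsStablyFiniteRing (MonoidAlgebra K G) ∧ IsDedekindFiniteMonoid (MonoidAlgebra K G)) ∧
    (∀ (p : ℕ) [Fact p.Prime] (K : Type u) [Field K] [CharP K p] (G : Type v) [Group G]
      (N : Subgroup G) [N.Normal],
      Vale.Agent.Lib.P194.IsSurjunctive (G ⧸ N) →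
      ((∀ B : Finset G, (B : Set G) ⊆ N → Subgroup.normalClosure (B : Set G) ≠ ⊥ →
            ∃ φ : Subgroup.normalClosure (B : Set G) →* Multiplicative (ZMod p), φ ≠ 1)
          ∨ IsFreeGroup N
          ∨ (N ≤ Subgroup.center G ∧
              ∀ a ∈ N, ∀ k : ℕ, 0 < k → k.Coprime p → a ^ k = 1 → a = 1)) →
      IsStablyFiniteRing (MonoidAlgebra K G) ∧ IsDedekindFiniteMonoid (MonoidAlgebra K G)) :=
  ⟨fun p _ S _ _ G _ N _ hN => Vale.Agent.Results.P194.ExtensionClosure.result p S G N hN,
   fun S _ G _ N _ hN => Vale.Agent.Results.P194.LocallyFreeKernel.result S G N hN,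
   fun p _ K _ _ G _ N _ hN hQ => Vale.Agent.Results.P194.SoficExtension.result p K G N hN hQ,
   fun p _ K _ _ G _ N _ hQ hN =>
     Vale.Agent.Results.P194.SurjunctiveExtension.result p K G N hQ hN⟩
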