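import Vale.Agent.Lib.P194.Descent

/-!
Kaplansky direct / stable finiteness in characteristic `p` passes from `G ⧸ N` to `G`
whenever every nontrivial normal closure (in `G`) of a finite subset of `N`
admits a nontrivial homomorphism to `ℤ/p`.
-/

theorem Vale.Agent.Results.P194.ExtensionClosure.result
    (p : ℕ) [Fact p.Prime] (S : Type*) [Ring S] [CharP S p] (G : Type*) [Group G]
    (N : Subgroup G) [N.Normal]
    (hN : ∀ B : Finset G, (B : Set G) ⊆ N → Subgroup.normalClosure (B : Set G) ≠ ⊥ →
      ∃ φ : Subgroup.normalClosure (B : Set G) →* Multiplicative (ZMod p), φ ≠ 1) :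
    (IsDedekindFiniteMonoid (MonoidAlgebra S (G ⧸ N)) →
      IsDedekindFiniteMonoid (MonoidAlgebra S G)) ∧
    (IsStablyFiniteRing (MonoidAlgebra S (G ⧸ N)) →
      IsStablyFiniteRing (MonoidAlgebra S G)) :=
  ⟨fun h => Vale.Agent.Lib.P194.dedekindFinite_of_quotient N hN h,
   fun h => Vale.Agent.Lib.P194.stablyFinite_of_quotient N hN h⟩
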